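import Vale.Agent.P011.D4I.HDefs
import Vale.Agent.P011.D4T.HFinOf

/-!
The group of permutations and the group of linear maps; the data over the ground field and the
model.
-/

open Module NumberField

namespace Vale.Agent.P011.D4I

open Vale.Agent.P011.MPQ Vale.Agent.P011.D4 Vale.Agent.P011.D4.Oct Vale.Agent.P011.D4T

section hom

variable {k L E : Type} [Field k] [Field L] [Field E] [Algebra k L] [Algebra k E] [Algebra L E]
  [IsScalarTower k L E] {ρ σ ι : E ≃ₐ[k] E} {α : E} {a b c : kˣ} {q : Lˣ}

/-- The two descriptions of the group agree. -/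
def toTI : GTI ρ σ ι α a b c q →* TI ρ σ ι α (algebraMap L E (q : L)) a b c where
  toFun g := ⟨g.1.toEquiv, ⟨fun x y => map_add g.1 x y, fun t x => map_smul g.1 t x, g.2.1,
    fun x => by
      rw [Jt_eq, Jt_eq]
      exact g.2.2.1 x⟩, g.2.2.2⟩
  map_one' := rfl
  map_mul' _ _ := rfl

theorem toTI_surjective : Function.Surjective (toTI (ρ := ρ) (σ := σ) (ι := ι) (α := α) (a := a)
    (b := b) (c := c) (q := q)) := by
  rintro ⟨g, ⟨g1, g2, g3, g4⟩, g5⟩
  refine ⟨⟨{ g with
    map_add' := g1
    map_smul' := g2 }, fun x y => g3 x y, fun x => ?_, fun x => g5 x⟩, ?_⟩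
  · rw [← Jt_eq, ← Jt_eq]
    exact g4 x
  · apply Subtype.ext
    apply Equiv.ext
    intro x
    rfl

theorem toTI_injective : Function.Injective (toTI (ρ := ρ) (σ := σ) (ι := ι) (α := α) (a := a)
    (b := b) (c := c) (q := q)) := by
  intro g h hgh
  apply Subtype.ext
  apply LinearEquiv.ext
  intro x
  exact congrArg (fun f : TI ρ σ ι α (algebraMap L E (q : L)) a b c =>
    (f : Equiv.Perm (OctL E a b c)) x) hgh

/-- The statement for the permutations from the statement for the linear maps. -/
theorem ti_of (h : ∀ N : Subgroup (GTI ρ σ ι α a b c q), N.index ≠ 0 → N = ⊤) :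
    NoIndex (TI ρ σ ι α (algebraMap L E (q : L)) a b c) := by
  intro N hN
  have h1 : N.comap (toTI (ρ := ρ) (σ := σ) (ι := ι) (α := α) (a := a) (b := b) (c := c)
      (q := q)) = ⊤ := by
    apply h
    rw [Subgroup.index_comap_of_surjective _ toTI_surjective]
    exact hN
  rw [eq_top_iff]
  intro φ _
  obtain ⟨ψ, rfl⟩ := toTI_surjective φ
  have h3 : ψ ∈ N.comap toTI := by rw [h1]; exact Subgroup.mem_top ψ
  exact h3

end hom

section data

variable {k L E : Type} [Field k] [Field L] [Field E] [Algebra k L] [Algebra k E] [Algebra L E]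
  [IsScalarTower k L E] {ρ σ ι : E ≃ₐ[k] E} {α : E} {a b c : kˣ} {q : Lˣ}

/-- An automorphism which fixes `L`. -/
def overL (s : E ≃ₐ[k] E) (hs : ∀ t : L, s (algebraMap L E t) = algebraMap L E t) :
    E ≃ₐ[L] E :=
  { (s : E ≃+* E) with commutes' := hs }

theorem IsDataI.α0 (H : IsDataI ρ σ ι α a b c q) : α ≠ 0 := by
  intro h
  have h1 := H.α2
  rw [h, zero_pow two_ne_zero] at h1
  exact a.ne_zero ((map_eq_zero _).mp h1.symm)

theorem IsDataI.finite (H : IsDataI ρ σ ι α a b c q) : FiniteDimensional L E :=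
  Module.finite_of_finrank_pos (by rw [H.E4]; norm_num)

theorem IsDataI.σα' [NeZero (2 : E)] (H : IsDataI ρ σ ι α a b c q) : σ α ≠ α := by
  intro h
  have h1 := H.σα
  rw [h] at h1
  have h2 : (2 : E) * α = 0 := by linear_combination h1
  exact H.α0 ((mul_eq_zero.mp h2).resolve_left (NeZero.ne 2))

theorem IsDataI.η1 (H : IsDataI ρ σ ι α a b c q) : ∃ x, ρ (ι x) ≠ x := by
  by_contra h
  push Not at h
  obtain ⟨x, hx⟩ := H.ρ1
  apply hx
  have h1 : ∀ y, ι y = ρ (ρ y) := fun y => by
    have h2 := congrArg (fun z => ρ (ρ z)) (h y)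
    rwa [H.ρ3] at h2
  have h2 := H.ιρ x
  rw [h1, h1, H.ρ3] at h2
  exact h2.symm

theorem IsDataI.le_card [NeZero (2 : E)] (H : IsDataI ρ σ ι α a b c q)
    (S : Subgroup (E ≃ₐ[L] E)) (h1 : overL σ H.σL ∈ S)
    (h2 : overL (ι.trans ρ) H.ριL ∈ S) : 4 ≤ Nat.card S := by
  have := H.finite
  obtain ⟨x, hx⟩ := H.η1
  let f : Fin 4 → S := ![1, ⟨_, h2⟩, ⟨_, h1⟩, ⟨_, h1⟩ * ⟨_, h2⟩]
  have hf : Function.Injective f := by
    have e0 : ∀ y, (f 0 : E ≃ₐ[L] E) y = y := fun _ => rfl
    have e1 : ∀ y, (f 1 : E ≃ₐ[L] E) y = ρ (ι y) := fun _ => rfl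
    have e2 : ∀ y, (f 2 : E ≃ₐ[L] E) y = σ y := fun _ => rfl
    have e3 : ∀ y, (f 3 : E ≃ₐ[L] E) y = σ (ρ (ι y)) := fun _ => rfl
    have n01 : f 0 ≠ f 1 := by
      intro h
      apply hx
      rw [← e1, ← h, e0]
    have n02 : f 0 ≠ f 2 := by
      intro h
      apply H.σα'
      rw [← e2, ← h, e0]
    have n03 : f 0 ≠ f 3 := by
      intro h
      apply H.σα'
      have := e3 α
      rw [← h, e0, H.ια, H.ρα] at this
      exact this.symm
    have n12 : f 1 ≠ f 2 := by
      intro h
      apply H.σα'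
      have := e2 α
      rw [← h, e1, H.ια, H.ρα] at this
      exact this.symm
    have n13 : f 1 ≠ f 3 := by
      intro h
      apply H.σα'
      have := e3 α
      rw [← h, e1, H.ια, H.ρα] at this
      exact this.symm
    have n23 : f 2 ≠ f 3 := by
      intro h
      apply hx
      have := e3 x
      rw [← h, e2] at this
      exact (σ.injective this).symm
    intro i j hij
    fin_cases i <;> fin_cases j <;>
      first
        | rfl
        | exact absurd hij n01
        | exact absurd hij n02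
        | exact absurd hij n03
        | exact absurd hij n12
        | exact absurd hij n13
        | exact absurd hij n23
        | exact absurd hij.symm n01
        | exact absurd hij.symm n02
        | exact absurd hij.symm n03
        | exact absurd hij.symm n12
        | exact absurd hij.symm n13
        | exact absurd hij.symm n23
  have h3 := Nat.card_le_card_of_injective f hf
  rwa [Nat.card_eq_fintype_card, Fintype.card_fin] at h3

theorem IsDataI.fixL [NeZero (2 : E)] (H : IsDataI ρ σ ι α a b c q) (x : E) (h1 : σ x = x)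
    (h2 : ι x = ρ (ρ x)) : ∃ t : L, algebraMap L E t = x := by
  have := H.finite
  let S : Subgroup (E ≃ₐ[L] E) := Subgroup.closure {overL σ H.σL, overL (ι.trans ρ) H.ριL}
  have m1 : overL σ H.σL ∈ S := Subgroup.subset_closure (Or.inl rfl)
  have m2 : overL (ι.trans ρ) H.ριL ∈ S := Subgroup.subset_closure (Or.inr rfl)
  have h3 := IntermediateField.finrank_fixedField_eq_card (F := L) (E := E) S
  have h4 := H.le_card S m1 m2
  have h5 := Module.finrank_mul_finrank L (IntermediateField.fixedField S) E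
  rw [H.E4, h3] at h5
  have h6 : finrank L (IntermediateField.fixedField S) = 1 := by
    have h7 : 0 < finrank L (IntermediateField.fixedField S) := by
      rcases Nat.eq_zero_or_pos (finrank L (IntermediateField.fixedField S)) with h | h
      · rw [h, zero_mul] at h5
        omega
      · exact h
    nlinarith
  rw [IntermediateField.finrank_eq_one_iff] at h6
  have h7 : x ∈ IntermediateField.fixedField S := by
    rw [IntermediateField.mem_fixedField_iff]
    intro f hf
    have h8 : S ≤ MulAction.stabilizer (E ≃ₐ[L] E) x := by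
      rw [Subgroup.closure_le]
      rintro f (rfl | rfl)
      · exact h1
      · change ρ (ι x) = x
        rw [h2, H.ρ3]
    exact h8 hf
  rw [h6, IntermediateField.mem_bot] at h7
  exact h7

theorem IsDataI.ρL [NeZero (2 : E)] (H : IsDataI ρ σ ι α a b c q) :
    ∃ t : L, ρ (algebraMap L E t) ≠ algebraMap L E t := by
  have := H.finite
  by_contra h
  push Not at h
  obtain ⟨x, hx⟩ := H.ρ1
  have h1 : orderOf (overL ρ h) = 3 := orderOf_eq_prime (by
    apply AlgEquiv.ext
    intro x
    exact H.ρ3 x) (fun e => hx (by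
      have := congrArg (fun f : E ≃ₐ[L] E => f x) e
      exact this))
  have h2 := H.le_card ⊤ (Subgroup.mem_top _) (Subgroup.mem_top _)
  rw [Subgroup.card_top] at h2
  have h3 : Nat.card (E ≃ₐ[L] E) ≤ 4 := by
    have h4 := AlgEquiv.card_le (F := L) (K := E)
    rw [H.E4] at h4
    rwa [Nat.card_eq_fintype_card]
  have h4 := orderOf_dvd_natCard (overL ρ h)
  rw [h1] at h4
  omega

/-- The elements of `L` fixed by `ρ`. -/
def fixρ (ρ : E ≃ₐ[k] E) : IntermediateField k L where
  carrier := {t | ρ (algebraMap L E t) = algebraMap L E t}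
  mul_mem' := by
    intro x y hx hy
    change ρ _ = _
    rw [map_mul, map_mul, hx, hy]
  add_mem' := by
    intro x y hx hy
    change ρ _ = _
    rw [map_add, map_add, hx, hy]
  algebraMap_mem' t := by
    change ρ _ = _
    rw [← IsScalarTower.algebraMap_apply, AlgEquiv.commutes]
  inv_mem' := by
    intro x hx
    change ρ _ = _
    rw [map_inv₀, map_inv₀, hx]

theorem IsDataI.fixk [NeZero (2 : E)] (H : IsDataI ρ σ ι α a b c q) (x : E) (h1 : ρ x = x)
    (h2 : σ x = x) (h3 : ι x = x) : ∃ t : k, algebraMap k E t = x := by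
  obtain ⟨t, rfl⟩ := H.fixL x h2 (by rw [h1, h1, h3])
  have h4 : IsSimpleOrder (IntermediateField k L) :=
    IntermediateField.isSimpleOrder_of_finrank_prime k L (by rw [H.L3]; norm_num)
  rcases h4.eq_bot_or_eq_top (fixρ (L := L) ρ) with h | h
  · have h5 : t ∈ fixρ (L := L) ρ := h1
    rw [h, IntermediateField.mem_bot] at h5
    obtain ⟨s, rfl⟩ := h5
    exact ⟨s, IsScalarTower.algebraMap_apply k L E s⟩
  · exfalso
    obtain ⟨t', ht'⟩ := H.ρL
    apply ht'
    have h5 : t' ∈ fixρ (L := L) ρ := by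
      rw [h]
      exact IntermediateField.mem_top
    exact h5

/-- The model. -/
theorem IsDataI.hy [NeZero (2 : E)] (H : IsDataI ρ σ ι α a b c q) : HyI ρ σ ι α a b c q where
  h3 := H.L3
  ρL := H.ρL
  ρ3 := H.ρ3
  σ2 := H.σ2
  ι2 := H.ι2
  comm := H.comm
  σι := H.σι
  ιρ := H.ιρ
  σL := H.σL
  ιL := fun t => by
    have h := congrArg (fun z => ρ (ρ z)) (H.ριL t)
    rwa [H.ρ3] at h
  fixL := H.fixL
  fixk := H.fixk
  α2 := by rw [← pow_two]; exact H.α2
  ρα := H.ρα
  σα := H.σα
  ια := H.ια
  hq := H.nq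
  hdiv := H.div
  hre := H.real

end data

end Vale.Agent.P011.D4I
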