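import Vale.Agent.P011.D4T.Defs2

/-!
Block D4I: trialitarian groups of a noncyclic cubic extension with nontrivial Tits class.

`k ⊂ L ⊂ E`, `L / k` noncyclic cubic, `E` the compositum of the Galois closure of `L` and of
`k(α)`, `α² = a`; `ρ`, `σ`, `ι` automorphisms of `E` of orders `3`, `2`, `2`, `ι ρ = ρ² ι`, `σ`
central; `L` is the fixed field of `σ` and `ρ ι`; `q ∈ Lˣ` with norm one, `C = (a, b, c)` over `k`,
`J x = m σ(x) m'`, `I x = ι(x̄)`.
-/

open NumberField IsDedekindDomain Topology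

namespace Vale.Agent.P011.D4I

open Vale.Agent.P011.Arith Vale.Agent.P011.MPQ Vale.Agent.P011.D4 Vale.Agent.P011.D4.Oct
  Vale.Agent.P011.E6 Vale.Agent.P011.D4T

section model

variable {k L E : Type} [Field k] [Field L] [Field E] [Algebra k L] [Algebra k E] [Algebra L E]
  [IsScalarTower k L E]

/-- The semilinear antiautomorphism `I x = ι (star x)`. -/
def Im (ι : E ≃ₐ[k] E) {a b c : kˣ} (x : OctL E a b c) : OctL E a b c := omap ι (star x)

/-- The hypotheses of the model. -/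
structure HyI (ρ σ ι : E ≃ₐ[k] E) (α : E) (a b c : kˣ) (q : Lˣ) : Prop where
  h3 : Module.finrank k L = 3
  ρL : ∃ t : L, ρ (algebraMap L E t) ≠ algebraMap L E t
  ρ3 : ∀ x, ρ (ρ (ρ x)) = x
  σ2 : ∀ x, σ (σ x) = x
  ι2 : ∀ x, ι (ι x) = x
  comm : ∀ x, σ (ρ x) = ρ (σ x)
  σι : ∀ x, σ (ι x) = ι (σ x)
  ιρ : ∀ x, ι (ρ x) = ρ (ρ (ι x))
  σL : ∀ t : L, σ (algebraMap L E t) = algebraMap L E t
  ιL : ∀ t : L, ι (algebraMap L E t) = ρ (ρ (algebraMap L E t))
  fixL : ∀ x : E, σ x = x → ι x = ρ (ρ x) → ∃ t : L, algebraMap L E t = x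
  fixk : ∀ x : E, ρ x = x → σ x = x → ι x = x → ∃ t : k, algebraMap k E t = x
  α2 : α * α = algebraMap k E a
  ρα : ρ α = α
  σα : σ α = -α
  ια : ι α = α
  hq : algebraMap L E (q : L) * ρ (algebraMap L E (q : L)) * ρ (ρ (algebraMap L E (q : L))) = 1
  hdiv : Division a b c
  /-- good parameters at the real places -/
  hre : ∀ τ : k →+* ℝ, τ a < 0 → τ b < 0 ∧ τ c < 0 ∧
    ∀ w : L →+* ℝ, w.comp (algebraMap k L) = τ → 0 < w (q : L)

/-- The algebra `(a, q)` over `L` is split at the primes of even local degree over `k`: a square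
class of `k` which becomes trivial at a prime where `(a, q)` is ramified is trivial. -/
def HOdd {k L : Type} [Field k] [NumberField k] [Field L] [NumberField L] [Algebra k L] (a : kˣ)
    (q : Lˣ) : Prop :=
  ∀ (v : HeightOneSpectrum (𝓞 k)) (w : HeightOneSpectrum (𝓞 L)),
    w.asIdeal.comap (algebraMap (𝓞 k) (𝓞 L)) = v.asIdeal → Ram (up L a) q w →
      ∀ D : kˣ, up L D ∈ LS (w.valuation L) → D ∈ LS (v.valuation k)

/-- The group of rational points of the trialitarian group. -/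
def GTI (ρ σ ι : E ≃ₐ[k] E) (α : E) (a b c : kˣ) (q : Lˣ) :
    Subgroup (OctL E a b c ≃ₗ[E] OctL E a b c) where
  carrier := {g | (∀ x y, g (tri ρ x y) = tri ρ (g x) (g y)) ∧
    (∀ x, g (Jm ρ σ α q x) = Jm ρ σ α q (g x)) ∧ ∀ x, g (Im ι x) = Im ι (g x)}
  mul_mem' := by
    rintro g h ⟨g1, g2, g3⟩ ⟨h1, h2, h3⟩
    refine ⟨fun x y => ?_, fun x => ?_, fun x => ?_⟩
    · rw [LinearEquiv.mul_apply, LinearEquiv.mul_apply, LinearEquiv.mul_apply, h1, g1]
    · rw [LinearEquiv.mul_apply, LinearEquiv.mul_apply, h2, g2]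
    · rw [LinearEquiv.mul_apply, LinearEquiv.mul_apply, h3, g3]
  one_mem' := ⟨fun _ _ => rfl, fun _ => rfl, fun _ => rfl⟩
  inv_mem' := by
    rintro g ⟨g1, g2, g3⟩
    have h : ∀ z, g (g⁻¹ z) = z := fun z => by
      rw [← LinearEquiv.mul_apply, mul_inv_cancel]; rfl
    refine ⟨fun x y => ?_, fun x => ?_, fun x => ?_⟩
    · apply g.injective
      rw [g1, h, h, h]
    · apply g.injective
      rw [g2, h, h]
    · apply g.injective
      rw [g3, h, h]

/-- The multiplier `ρ(κ)`, `κ ∈ Lˣ`, of a similitude which commutes with `J` and `I`. -/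
def IsKapI (ρ : E ≃ₐ[k] E) {a b c : kˣ} (z : OctL E a b c ≃ₗ[E] OctL E a b c) (κ : Lˣ) : Prop :=
  ∀ x y, z (tri ρ x y) = ρ (algebraMap L E (κ : L)) • tri ρ (z x) (z y)

/-- The adjoint group (times the scalars `ρ(l)`, `l ∈ Lˣ`): the similitudes which commute with
`J` and `I`. -/
def ATI (ρ σ ι : E ≃ₐ[k] E) (α : E) (a b c : kˣ) (q : Lˣ) :
    Subgroup (OctL E a b c ≃ₗ[E] OctL E a b c) where
  carrier := {z | (∃ κ : Lˣ, IsKapI ρ z κ) ∧ (∀ x, z (Jm ρ σ α q x) = Jm ρ σ α q (z x)) ∧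
    ∀ x, z (Im ι x) = Im ι (z x)}
  mul_mem' := by
    rintro g h ⟨⟨κ, g1⟩, g2, g3⟩ ⟨⟨κ', h1⟩, h2, h3⟩
    refine ⟨⟨κ * κ', fun x y => ?_⟩, fun x => ?_, fun x => ?_⟩
    · rw [LinearEquiv.mul_apply, LinearEquiv.mul_apply, LinearEquiv.mul_apply, h1, map_smul, g1,
        smul_smul, Units.val_mul, map_mul, map_mul, mul_comm (ρ (algebraMap L E (κ : L)))]
    · rw [LinearEquiv.mul_apply, LinearEquiv.mul_apply, h2, g2]
    · rw [LinearEquiv.mul_apply, LinearEquiv.mul_apply, h3, g3]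
  one_mem' := ⟨⟨1, fun x y => by
    rw [Units.val_one, map_one, map_one, one_smul]; rfl⟩, fun _ => rfl, fun _ => rfl⟩
  inv_mem' := by
    rintro g ⟨⟨κ, g1⟩, g2, g3⟩
    have h : ∀ z, g (g⁻¹ z) = z := fun z => by
      rw [← LinearEquiv.mul_apply, mul_inv_cancel]; rfl
    refine ⟨⟨κ⁻¹, fun x y => ?_⟩, fun x => ?_, fun x => ?_⟩
    · apply g.injective
      rw [map_smul, g1, h, h, h, smul_smul, ← map_mul, ← map_mul, Units.inv_mul, map_one, map_one,
        one_smul]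
    · apply g.injective
      rw [g2, h, h]
    · apply g.injective
      rw [g3, h, h]

variable [NeZero (2 : E)]

/-- The centraliser, in `ATI`, of the involution of the quaternion algebra generated by `i`
and `j'`. -/
def stabI (ρ σ ι : E ≃ₐ[k] E) (α : E) (q : Lˣ) {a b c b' c' : kˣ} {j l : Oct a b c}
    (h : Trip a b' c' gi j l) : Subgroup (ATI ρ σ ι α a b c q) where
  carrier := {z | z.1 * tQ E h = tQ E h * z.1}
  mul_mem' := by
    intro x y hx hy
    change x.1 * y.1 * tQ E h = tQ E h * (x.1 * y.1)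
    have hx' : x.1 * tQ E h = tQ E h * x.1 := hx
    have hy' : y.1 * tQ E h = tQ E h * y.1 := hy
    rw [mul_assoc, hy', ← mul_assoc, hx', mul_assoc]
  one_mem' := by
    change (1 : OctL E a b c ≃ₗ[E] OctL E a b c) * tQ E h = tQ E h * 1
    rw [one_mul, mul_one]
  inv_mem' := by
    intro x hx
    change x.1⁻¹ * tQ E h = tQ E h * x.1⁻¹
    have hx' : x.1 * tQ E h = tQ E h * x.1 := hx
    rw [inv_mul_eq_iff_eq_mul, ← mul_assoc, hx', mul_assoc, mul_inv_cancel, mul_one]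

omit [NeZero (2 : E)] in
/-- The centraliser of the standard involution. -/
def stab0I (ρ σ ι : E ≃ₐ[k] E) (α : E) (a b c : kˣ) (q : Lˣ) :
    Subgroup (ATI ρ σ ι α a b c q) where
  carrier := {z | ∀ x, z.1 (t0 E a b c x) = t0 E a b c (z.1 x)}
  mul_mem' := by
    intro x y hx hy v
    change x.1 (y.1 (t0 E a b c v)) = t0 E a b c (x.1 (y.1 v))
    rw [hy, hx]
  one_mem' := fun _ => rfl
  inv_mem' := by
    intro x hx v
    have h : ∀ z, x.1 (x.1⁻¹ z) = z := fun z => by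
      rw [← LinearEquiv.mul_apply, mul_inv_cancel]; rfl
    change x.1⁻¹ (t0 E a b c v) = t0 E a b c (x.1⁻¹ v)
    apply x.1.injective
    rw [h, hx, h]

/-- The subgroup generated by the centralisers of the involutions of the standard plane. -/
def stabsI (ρ σ ι : E ≃ₐ[k] E) (α : E) (a b c : kˣ) (q : Lˣ) : Subgroup (ATI ρ σ ι α a b c q) :=
  Subgroup.closure {z | ∃ (b' c' : kˣ) (j l : Oct a b c) (h : Trip a b' c' gi j l),
    z ∈ stabI ρ σ ι α q h}

end model

section classes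

variable {k L E : Type} [Field k] [Field L] [Field E] [Algebra k L] [Algebra k E] [Algebra L E]
  [IsScalarTower k L E]

/-- The finite residual of `GTI`, as a group of linear maps. -/
def RsI (ρ σ ι : E ≃ₐ[k] E) (α : E) (a b c : kˣ) (q : Lˣ) :
    Subgroup (OctL E a b c ≃ₗ[E] OctL E a b c) :=
  (fres (GTI ρ σ ι α a b c q)).map (GTI ρ σ ι α a b c q).subtype

/-- The elements of `ATI` which are scalar multiples of elements of the finite residual. -/
def IsNI (ρ σ ι : E ≃ₐ[k] E) (α : E) (a b c : kˣ) (q : Lˣ) (z : ATI ρ σ ι α a b c q) : Prop :=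
  ∃ (l : Lˣ) (g : OctL E a b c ≃ₗ[E] OctL E a b c), g ∈ RsI ρ σ ι α a b c q ∧
    ∀ x, z.1 x = ρ (algebraMap L E (l : L)) • g x

/-- The underlying map of `z(x₀, x; s)`:
`(y₀, y₁) ↦ (X y₀ star (ρ² X), (ν ρ²ν / s) x₀ y₁ star (ρ X))`, `X = psiL x`, `ν = nrd x`. -/
def zFI (ρ : E ≃ₐ[k] E) (α : E) (q : Lˣ) {a b c : kˣ} (x0 : Qt a b)
    (x : Qt (up L a) (q * up L b)) (s : kˣ) (y : OctL E a b c) : OctL E a b c :=
  ⟨psiL α q x * y.fst * star (qmap ρ (qmap ρ (psiL α q x))),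
    (algebraMap L E (nrd x) * ρ (ρ (algebraMap L E (nrd x))) / algebraMap k E (s : k)) •
      (qup E x0 * y.snd * star (qmap ρ (psiL α q x)))⟩

end classes

end Vale.Agent.P011.D4I
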