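import Vale.Agent.P011.D4T.HDefs
import Vale.Agent.P011.D4I.Defs

/-!
The trialitarian group of an octonion algebra, a noncyclic cubic extension and an element of norm
one.
-/

open Module

namespace Vale.Agent.P011.D4I

open Vale.Agent.P011.MPQ Vale.Agent.P011.D4 Vale.Agent.P011.D4T

section group

variable {k E : Type} [Field k] [Field E] [Algebra k E]

/-- The map `g` is linear over `E`, is compatible with the product of the cyclic composition and
commutes with `x ↦ m σ(x) m'` and with `x ↦ ι(x̄)`. -/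
def IsTriI (ρ σ ι : E ≃ₐ[k] E) (α q : E) {a b c : kˣ} (g : OctL E a b c → OctL E a b c) : Prop :=
  IsTriT ρ σ α q g ∧ ∀ x, g (omap ι (star x)) = omap ι (star (g x))

theorem isGrp_triI (ρ σ ι : E ≃ₐ[k] E) (α q : E) (a b c : kˣ) :
    IsGrp (IsTriI ρ σ ι α q (a := a) (b := b) (c := c)) := by
  refine ⟨⟨(isGrp_triT ρ σ α q a b c).one, fun _ => rfl⟩, ?_, ?_⟩
  · rintro g h ⟨g1, g2⟩ ⟨h1, h2⟩
    refine ⟨(isGrp_triT ρ σ α q a b c).comp g h g1 h1, fun x => ?_⟩
    rw [Function.comp_apply, h2, g2]; rfl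
  · rintro g h e e' ⟨g1, g2⟩
    refine ⟨(isGrp_triT ρ σ α q a b c).inv g h e e' g1, fun x => ?_⟩
    rw [← e' (omap ι (star (h x))), g2, e]

/-- The group of rational points of the trialitarian group. -/
def TI (ρ σ ι : E ≃ₐ[k] E) (α q : E) (a b c : kˣ) : Subgroup (Equiv.Perm (OctL E a b c)) :=
  permGroup (IsTriI ρ σ ι α q) (isGrp_triI ρ σ ι α q a b c)

end group

/-- The data: `L / k` is cubic and `E / L` has degree four, `ρ`, `σ`, `ι` are automorphisms of
`E / k` of orders three, two, two with `σ` central and `ι ρ = ρ² ι`, the field `L` is fixed by `σ`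
and by `ρ ι`, `α ^ 2 = a` with `ρ(α) = ι(α) = α` and `σ(α) = -α`, the element `q` of `L` has norm
one, the octonion algebra `(a, b, c)` over `k` is a division algebra, and at the real places of `k`
where `a` is negative it is definite and `q` is positive at the real places of `L` over them. -/
structure IsDataI {k L E : Type} [Field k] [Field L] [Field E] [Algebra k L] [Algebra k E]
    [Algebra L E] [IsScalarTower k L E] (ρ σ ι : E ≃ₐ[k] E) (α : E) (a b c : kˣ) (q : Lˣ) :
    Prop where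
  L3 : finrank k L = 3
  E4 : finrank L E = 4
  ρ1 : ∃ x, ρ x ≠ x
  ρ3 : ∀ x, ρ (ρ (ρ x)) = x
  σ2 : ∀ x, σ (σ x) = x
  ι2 : ∀ x, ι (ι x) = x
  comm : ∀ x, σ (ρ x) = ρ (σ x)
  σι : ∀ x, σ (ι x) = ι (σ x)
  ιρ : ∀ x, ι (ρ x) = ρ (ρ (ι x))
  σL : ∀ t : L, σ (algebraMap L E t) = algebraMap L E t
  ριL : ∀ t : L, ρ (ι (algebraMap L E t)) = algebraMap L E t
  α2 : α ^ 2 = algebraMap k E a
  ρα : ρ α = α
  σα : σ α = -α
  ια : ι α = α
  nq : algebraMap L E (q : L) * ρ (algebraMap L E (q : L)) * ρ (ρ (algebraMap L E (q : L))) = 1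
  div : Oct.Division a b c
  real : ∀ τ : k →+* ℝ, τ a < 0 → τ b < 0 ∧ τ c < 0 ∧
    ∀ w : L →+* ℝ, w.comp (algebraMap k L) = τ → 0 < w (q : L)

end Vale.Agent.P011.D4I
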