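import Vale.Agent.P011.D4I.HFinOf
import Vale.Agent.P011.D4I.H68.Fin

/-!
The final theorem on trialitarian groups of noncyclic cubic extensions with nontrivial Tits class,
for the group of permutations.
-/

open Module NumberField

namespace Vale.Agent.P011.D4I

open Vale.Agent.P011.MPQ Vale.Agent.P011.D4 Vale.Agent.P011.D4.Oct Vale.Agent.P011.D4T

/-- **Trialitarian groups of noncyclic cubic extensions with nontrivial Tits class**, final
form. -/
theorem ti_top {k L E : Type} [Field k] [NumberField k] [Field L] [NumberField L] [Field E]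
    [Algebra k L] [Algebra k E] [Algebra L E] [IsScalarTower k L E] {ρ σ ι : E ≃ₐ[k] E} {α : E}
    {a b c : kˣ} {q : Lˣ} (H : IsDataI ρ σ ι α a b c q) (hO : HOdd a q) :
    NoIndex (TI ρ σ ι α (algebraMap L E (q : L)) a b c) := by
  have hc : CharZero E := charZero_of_injective_algebraMap (algebraMap k E).injective
  have h2 : NeZero (2 : E) := ⟨two_ne_zero⟩
  exact ti_of fun N hN => gt_top H.hy hO N hN

end Vale.Agent.P011.D4I
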