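import Vale.Agent.P011.D4I.Defs
import Vale.Agent.P011.D4T.H657.Jq

/-!
Block D4I: literal statements of the rows (`L / k` not cyclic, involution `ι`).
-/

open NumberField IsDedekindDomain Topology

namespace Vale.Agent.P011.D4I.Spec

open Vale.Agent.P011.MPQ Vale.Agent.P011.D4 Vale.Agent.P011.D4.Oct Vale.Agent.P011.E6
open Vale.Agent.P011.D4T Vale.Agent.P011.D4I

section alg

variable {k L E : Type} [Field k] [Field L] [Field E] [Algebra k L] [Algebra k E] [Algebra L E]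
  [IsScalarTower k L E] [NeZero (2 : k)] [NeZero (2 : E)] {ρ σ ι : E ≃ₐ[k] E} {α : E}
  {a b c : kˣ} {q : Lˣ} (H : HyI ρ σ ι α a b c q)

include H

/-! ### BAS (862, 657) -/

theorem hj : HJ a ρ σ α (algebraMap L E (q : L)) (ρ (algebraMap L E (q : L)))
    (ρ (ρ (algebraMap L E (q : L)))) := sorry

theorem Jm_add (x y : OctL E a b c) : Jm ρ σ α q (x + y) = Jm ρ σ α q x + Jm ρ σ α q y := sorry

theorem Jm_smul (t : E) (x : OctL E a b c) : Jm ρ σ α q (t • x) = σ t • Jm ρ σ α q x := sorry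

theorem Jm_Jm (x : OctL E a b c) : Jm ρ σ α q (Jm ρ σ α q x) = rr ρ q • x := sorry

theorem Jm_tri (x y : OctL E a b c) :
    Jm ρ σ α q (tri ρ x y) = rr ρ q • tri ρ (Jm ρ σ α q x) (Jm ρ σ α q y) := sorry

theorem bil_Jm (x y : OctL E a b c) :
    bil (Jm ρ σ α q x) (Jm ρ σ α q y) = rr ρ q * σ (bil x y) := sorry

theorem Im_add (x y : OctL E a b c) : Im ι (x + y) = Im ι x + Im ι y := sorry

theorem Im_smul (t : E) (x : OctL E a b c) : Im ι (t • x) = ι t • Im ι x := sorry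

theorem Im_Im (x : OctL E a b c) : Im ι (Im ι x) = x := sorry

theorem Im_tri (x y : OctL E a b c) : Im ι (tri ρ x y) = tri ρ (Im ι y) (Im ι x) := sorry

theorem bil_Im (x y : OctL E a b c) : bil (Im ι x) (Im ι y) = ι (bil x y) := sorry

theorem Im_Jm (x : OctL E a b c) : Im ι (Jm ρ σ α q x) =
    (ρ (ρ (algebraMap L E (q : L))) / algebraMap L E (q : L)) • Jm ρ σ α q (Im ι x) := sorry

theorem psiL_mul (x y : Qt (up L a) (q * up L b)) :
    (psiL α q (x * y) : Qt (up E a) (up E b)) = psiL α q x * psiL α q y := sorry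

theorem nrd_psiL (x : Qt (up L a) (q * up L b)) :
    nrd (psiL α q x : Qt (up E a) (up E b)) = algebraMap L E (nrd x) := sorry

theorem psiL_comm (x : Qt (up L a) (q * up L b)) :
    mq a b α (algebraMap L E q) * qmap σ (psiL α q x) =
      psiL α q x * mq a b α (algebraMap L E q) := sorry

theorem psiL_iota (x : Qt (up L a) (q * up L b)) :
    qmap ι (psiL α q x : Qt (up E a) (up E b)) = qmap ρ (qmap ρ (psiL α q x)) := sorry

theorem exists_psiL (x : Qt (up E a) (up E b))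
    (hx : mq a b α (algebraMap L E q) * qmap σ x = x * mq a b α (algebraMap L E q))
    (hx' : qmap ι x = qmap ρ (qmap ρ x)) :
    ∃ y : Qt (up L a) (q * up L b), psiL α q y = x := sorry

/-- The adjoint elements which commute with the standard involution. -/
theorem exists_z (x0 : Qt a b) (x : Qt (up L a) (q * up L b)) (s : kˣ)
    (h : algebraMap k E (nrd x0) * (algebraMap L E (nrd x) * ρ (algebraMap L E (nrd x)) *
      ρ (ρ (algebraMap L E (nrd x)))) = algebraMap k E ((s : k) ^ 2)) :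
    ∃ z : ATI ρ σ ι α a b c q, z ∈ stab0I ρ σ ι α a b c q ∧
      (∀ κ : Lˣ, nrd x * κ = 1 → IsKapI ρ z.1 κ) ∧ ∀ y, z.1 y = zFI ρ α q x0 x s y := sorry

theorem exists_long (x : SL1 a b) : ∃ g ∈ GTI ρ σ ι α a b c q, ∀ y : OctL E a b c,
    g y = ⟨y.fst, qup E ((x : (Qt a b)ˣ) : Qt a b) * y.snd⟩ := sorry

theorem exists_short (x : SL1 (up L a) (q * up L b)) : ∃ g ∈ GTI ρ σ ι α a b c q,
    ∀ y : OctL E a b c, g y = shortFun ρ (psiL α q ((x : (Qt (up L a) (q * up L b))ˣ) :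
      Qt (up L a) (q * up L b))) y := sorry

/-- TOR (657): the central torus. -/
theorem exists_tor (x : E) (hx : x ≠ 0) (hx' : ι x = ρ (ρ x)) :
    ∃ (z : ATI ρ σ ι α a b c q) (κ : Lˣ), IsKapI ρ z.1 κ ∧ algebraMap L E (κ : L) = x * σ x ∧
      ∀ {b' c' : kˣ} {j l : Oct a b c} (h : Trip a b' c' gi j l), z ∈ stabI ρ σ ι α q h := sorry

/-! ### CH (691, 547, 63) -/

omit H in
theorem tripO_Im {b' c' : kˣ} {j l : Oct a b c} (h : Trip a b' c' gi j l)
    (x : OctL E a b' c') : tripO E h (Im ι x) = Im ι (tripO E h x) := sorry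

theorem kap_unique {z : OctL E a b c ≃ₗ[E] OctL E a b c} {κ κ' : Lˣ} (h : IsKapI ρ z κ)
    (h' : IsKapI ρ z κ') : κ = κ' := sorry

/-- An element of class one is a scalar times an element of the group. -/
theorem exists_scal {z : ATI ρ σ ι α a b c q} {κ : Lˣ} (h : IsKapI ρ z.1 κ)
    (hκ : κ ∈ SqL k L) :
    ∃ (l : Lˣ) (g : OctL E a b c ≃ₗ[E] OctL E a b c), g ∈ GTI ρ σ ι α a b c q ∧
      ∀ x, z.1 x = ρ (algebraMap L E (l : L)) • g x := sorry

/-! ### GEN -/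

/-- D1a' (63). -/
theorem sing_ep {v : OctL E a b c} (hv : Pt ρ v) (hI : ∃ μ : E, Im ι v = μ • v) {t : E}
    (ht : t ≠ 0) (h : tri ρ v (Jm ρ σ α q v) = t • ep α) : ∃ (s : E) (w : Oct a b c), s ≠ 0 ∧
      w ≠ 0 ∧ dot w 1 = 0 ∧ dot w gi = 0 ∧ v = s • (ep α * oup E w) := sorry

/-- D1a (63). -/
theorem nb_ep {v : OctL E a b c} (hv : Pt ρ v) (hI : ∃ μ : E, Im ι v = μ • v)
    (h : Nb ρ (ep α * oup E (gl : Oct a b c)) v) :
    ∃ (s t : E) (f : Oct a b c), dot f 1 = 0 ∧ dot f gi = 0 ∧ dot f gl = 0 ∧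
      dot f (gi * gl) = 0 ∧ v = s • (ep α * oup E gl) + t • ((1 - ep α) * oup E f) := sorry

/-- CONN (69): chains of stable singular vectors. -/
theorem connected {v w : OctL E a b c} (hv : Pt ρ v) (hIv : ∃ μ : E, Im ι v = μ • v)
    (hw : Pt ρ w) (hIw : ∃ μ : E, Im ι w = μ • w)
    (hn : ∃ u, Pt ρ u ∧ (∃ μ : E, Im ι u = μ • u) ∧ Nb ρ v u ∧ ∀ t : E, u ≠ t • v) :
    ∃ u z, Pt ρ u ∧ (∃ μ : E, Im ι u = μ • u) ∧ Pt ρ z ∧ (∃ μ : E, Im ι z = μ • z) ∧
      Nb ρ v u ∧ Nb ρ u z ∧ Nb ρ z w := sorry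

/-- R (553): the involutions of the group which fix `e₊`. -/
theorem exists_tQ {t : OctL E a b c ≃ₗ[E] OctL E a b c} (ht : t ∈ GTI ρ σ ι α a b c q)
    (h1 : t ≠ 1) (h2 : t * t = 1) (he : t (ep α) = ep α) :
    ∃ (b' c' : kˣ) (j l : Oct a b c) (h : Trip a b' c' gi j l), t = tQ E h := sorry

end alg

section arith

variable {k L E : Type} [Field k] [NumberField k] [Field L] [NumberField L] [Field E]
  [Algebra k L] [Algebra k E] [Algebra L E]
  [IsScalarTower k L E] [NeZero (2 : E)] {ρ σ ι : E ≃ₐ[k] E} {α : E}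
  {a b c : kˣ} {q : Lˣ} (H : HyI ρ σ ι α a b c q)

include H

/-- D1b' (657). -/
theorem exists_line (s t : E) (h : s ≠ 0 ∨ t ≠ 0)
    (hI : ∃ μ : E, Im ι (s • (ep α * gl) + t • ((1 - ep α) * (gj * gl)) : OctL E a b c) =
      μ • (s • (ep α * gl) + t • ((1 - ep α) * (gj * gl)))) :
    ∃ z ∈ stab0I ρ σ ι α a b c q, ∃ r : E, r ≠ 0 ∧
      z.1 (ep α) = r • tri ρ (s • (ep α * gl) + t • ((1 - ep α) * (gj * gl)) : OctL E a b c)
        (Jm ρ σ α q (s • (ep α * gl) + t • ((1 - ep α) * (gj * gl)))) := sorry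

/-- CENT (547). -/
theorem cent {z : ATI ρ σ ι α a b c q} (hz : z ∈ stab0I ρ σ ι α a b c q) :
    ∃ (x0 : Qt a b) (x : Qt (up L a) (q * up L b)) (s : kˣ) (l : Lˣ),
      algebraMap k E (nrd x0) * (algebraMap L E (nrd x) * ρ (algebraMap L E (nrd x)) *
        ρ (ρ (algebraMap L E (nrd x)))) = algebraMap k E ((s : k) ^ 2) ∧
      ∀ y, z.1 y = ρ (algebraMap L E (l : L)) • zFI ρ α q x0 x s y := sorry

/-- GEN1 (69, 659). -/
theorem gen1 {v : OctL E a b c} (hv : Pt ρ v) (hI : ∃ μ : E, Im ι v = μ • v) :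
    ∃ y ∈ stabsI ρ σ ι α a b c q, ∃ t : E, t ≠ 0 ∧
      y.1 (tri ρ v (Jm ρ σ α q v)) = t • ep α := sorry

/-- GEN2 (369). -/
theorem gen2 {z : ATI ρ σ ι α a b c q} {t : E} (hz : z.1 (ep α) = t • ep α) :
    z ∈ stabsI ρ σ ι α a b c q := sorry

/-- GEN (659). -/
theorem gen : stabsI ρ σ ι α a b c q = ⊤ := sorry

/-! ### F1 -/

/-- F1a (369). -/
theorem autI_mem {g : OctL E a b c ≃ₗ[E] OctL E a b c} (hg : g ∈ GTI ρ σ ι α a b c q)
    (he : g (ep α) = ep α) : g ∈ RsI ρ σ ι α a b c q := sorry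

/-- F1b (637). -/
theorem tor_mem {x : SL1 (up L a) (q * up L b)}
    (hJ : ((x : (Qt (up L a) (q * up L b))ˣ) : Qt (up L a) (q * up L b)).imJ = 0)
    (hK : ((x : (Qt (up L a) (q * up L b))ˣ) : Qt (up L a) (q * up L b)).imK = 0)
    {g : OctL E a b c ≃ₗ[E] OctL E a b c}
    (hg : ∀ y : OctL E a b c, g y = shortFun ρ (psiL α q ((x : (Qt (up L a) (q * up L b))ˣ) :
      Qt (up L a) (q * up L b))) y) : g ∈ RsI ρ σ ι α a b c q := sorry

/-- F1b' (553). -/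
theorem torD_mem {x : SL1 (up L a) (q * up L b)} {D : k} {w : Qt (up L a) (q * up L b)}
    (hD : GoodD a b q D) (hns : ∀ e : E, e * e ≠ algebraMap k E D)
    (hw0 : w.re = 0) (hw : w * w = algebraMap k L D • 1) {s t : L}
    (hx : ((x : (Qt (up L a) (q * up L b))ˣ) : Qt (up L a) (q * up L b)) = s • 1 + t • w)
    {g : OctL E a b c ≃ₗ[E] OctL E a b c}
    (hg : ∀ y : OctL E a b c, g y = shortFun ρ (psiL α q ((x : (Qt (up L a) (q * up L b))ˣ) :
      Qt (up L a) (q * up L b))) y) : g ∈ RsI ρ σ ι α a b c q := sorry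

/-- F1c (862). -/
theorem short_mem (ho : HOdd a q) {x : SL1 (up L a) (q * up L b)}
    {g : OctL E a b c ≃ₗ[E] OctL E a b c}
    (hg : ∀ y : OctL E a b c, g y = shortFun ρ (psiL α q ((x : (Qt (up L a) (q * up L b))ˣ) :
      Qt (up L a) (q * up L b))) y) : g ∈ RsI ρ σ ι α a b c q := sorry

/-- F1d (553, 63). -/
theorem mix_mem (ho : HOdd a q) {x0 : Qt a b} {x : Qt (up L a) (q * up L b)} {s : kˣ}
    (h0 : nrd x0 = s) (h1 : nrd x = algebraMap k L (s : k))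
    {g : OctL E a b c ≃ₗ[E] OctL E a b c}
    (hg : ∀ y : OctL E a b c, g y =
      (algebraMap k E (s : k))⁻¹ • zFI ρ α q x0 x (s ^ 2) y) : g ∈ RsI ρ σ ι α a b c q := sorry

/-- F1 (63). -/
theorem stab_N (ho : HOdd a q) {b' c' : kˣ} {j l : Oct a b c} (h : Trip a b' c' gi j l)
    {z : ATI ρ σ ι α a b c q} (hz : z ∈ stabI ρ σ ι α q h) {κ : Lˣ} (hκ : IsKapI ρ z.1 κ)
    (hcl : κ ∈ SqL k L) : IsNI ρ σ ι α a b c q z := sorry

/-! ### KC + Z5 -/

/-- (63, 69) -/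
theorem part (ho : HOdd a q) {b' c' : kˣ} {j l : Oct a b c} (h : Trip a b' c' gi j l) {D : k}
    (hD : GoodD a b q D) (hD' : GoodD a b' q D) (hns : ∀ e : E, e * e ≠ algebraMap k E D)
    {x y : L} (κ : Lˣ)
    (hκ : (κ : L) = x ^ 2 - algebraMap k L D * y ^ 2) :
    ∃ w w' : ATI ρ σ ι α a b c q, w ∈ stab0I ρ σ ι α a b c q ∧ w' ∈ stabI ρ σ ι α q h ∧
      IsKapI ρ w.1 κ ∧ IsKapI ρ w'.1 κ ∧ IsNI ρ σ ι α a b c q (w * w'⁻¹) := sorry

/-- F4 (64): decomposition of a class (`64`: E-free form, with the auxiliary places in place of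
the last clause). -/
theorem F4 (ho : HOdd a q) {b' c' : kˣ} {j l : Oct a b c} (h : Trip a b' c' gi j l) (ν : Lˣ)
    (hν : ∀ w : L →+* ℝ, w (algebraMap k L a) < 0 → 0 < w (ν : L)) :
    ∃ (D : Fin 3 → k) (x y : Fin 3 → L) (e : kˣ),
      (∀ i, GoodD a b q (D i) ∧ GoodD a b' q (D i) ∧ ∀ t : E, t * t ≠ algebraMap k E (D i)) ∧
      (ν : L) = algebraMap k L (e : k) * ∏ i, (x i ^ 2 - algebraMap k L (D i) * y i ^ 2) := sorry

/-- Signs: the multiplier of an element of `stab0` is, up to `k* L*²`, positive at the places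
with `a < 0`. -/
theorem sign_stab0 {z : ATI ρ σ ι α a b c q} (hz : z ∈ stab0I ρ σ ι α a b c q) {κ : Lˣ}
    (hκ : IsKapI ρ z.1 κ) : ∃ (t κ' : Lˣ), t ∈ SqL k L ∧ κ = t * κ' ∧
      ∀ w : L →+* ℝ, w (algebraMap k L a) < 0 → 0 < w (κ' : L) := sorry

/-- **D4I.** -/
theorem gt_top (ho : HOdd a q) (N : Subgroup (GTI ρ σ ι α a b c q)) (hN : N.index ≠ 0) :
    N = ⊤ := sorry

end arith

end Vale.Agent.P011.D4I.Spec
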